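import Vale.Agent.P160R.Basic

/-!
# Kernels modulo a prime of a symmetric matrix and of its principal minors
-/

namespace Vale.Agent.P160R

open Finset Matrix

variable {ι : Type} [Fintype ι] [DecidableEq ι]

omit [DecidableEq ι] in
/-- A vector over `ZMod p` in the kernel, as an integer vector. -/
lemma lift_kernel {p : ℕ} [Fact p.Prime] (B : Matrix ι ι ℤ) (v : ι → ZMod p)
    (hv : (B.map (Int.cast : ℤ → ZMod p)).mulVec v = 0) (hv0 : v ≠ 0) :
    ∃ z : ι → ℤ, (∃ l, ¬ (p : ℤ) ∣ z l) ∧ (∀ l, (p : ℤ) ∣ B.mulVec z l) ∧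
      ∀ l, v l = 0 → (p : ℤ) ∣ z l := by
  have hc : ∀ l, (((v l).val : ℤ) : ZMod p) = v l := fun l => by simp
  refine ⟨fun l => ((v l).val : ℤ), ?_, fun l => ?_, fun l hl => ?_⟩
  · obtain ⟨l, hl⟩ := Function.ne_iff.1 hv0
    exact ⟨l, fun h => hl (by rw [← hc, (ZMod.intCast_zmod_eq_zero_iff_dvd _ _).2 h]; rfl)⟩
  · rw [← ZMod.intCast_zmod_eq_zero_iff_dvd]
    have h := congrFun hv l
    simp only [mulVec, dotProduct, Matrix.map_apply, Pi.zero_apply] at h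
    simp only [mulVec, dotProduct, Int.cast_sum, Int.cast_mul, hc]
    exact h
  · rw [← ZMod.intCast_zmod_eq_zero_iff_dvd, hc, hl]

omit [DecidableEq ι] in
/-- Corank two gives a kernel vector, and one vanishing at any prescribed place. -/
lemma exists_kernel_of_corank_two {p : ℕ} (hp : p.Prime) (B : Matrix ι ι ℤ)
    (h : corankMod p B = 2) :
    (∃ z : ι → ℤ, (∃ l, ¬ (p : ℤ) ∣ z l) ∧ ∀ l, (p : ℤ) ∣ B.mulVec z l) ∧
      ∀ i, ∃ z : ι → ℤ, (∃ l, ¬ (p : ℤ) ∣ z l) ∧ (∀ l, (p : ℤ) ∣ B.mulVec z l) ∧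
        (p : ℤ) ∣ z i := by
  classical
  have : Fact p.Prime := ⟨hp⟩
  set M := B.map (Int.cast : ℤ → ZMod p)
  have hr : Fintype.card ι - M.rank = 2 := by
    rw [corankMod, dif_pos hp] at h
    exact h
  set K := LinearMap.ker M.mulVecLin
  have hK : Module.finrank (ZMod p) K = 2 := by
    have h1 := LinearMap.finrank_range_add_finrank_ker M.mulVecLin
    rw [Module.finrank_fintype_fun_eq_card] at h1
    change M.rank + Module.finrank (ZMod p) K = Fintype.card ι at h1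
    omega
  have hzero : ∀ i, ∃ v : ι → ZMod p, M.mulVec v = 0 ∧ v ≠ 0 ∧ v i = 0 := by
    intro i
    set g : K →ₗ[ZMod p] ZMod p := (LinearMap.proj i).comp K.subtype with hg
    have h1 := LinearMap.finrank_range_add_finrank_ker g
    have h2 : Module.finrank (ZMod p) (LinearMap.range g) ≤ 1 :=
      (Submodule.finrank_le _).trans_eq (Module.finrank_self _)
    have h3 : LinearMap.ker g ≠ ⊥ := by
      intro hb
      rw [hb, finrank_bot, hK] at h1
      omega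
    obtain ⟨v, hv, hv0⟩ := Submodule.exists_mem_ne_zero_of_ne_bot h3
    exact ⟨v.1, v.2, fun hh => hv0 (Subtype.ext hh), hv⟩
  refine ⟨?_, fun i => ?_⟩
  · have h3 : K ≠ ⊥ := by
      intro hb
      rw [hb, finrank_bot] at hK
      omega
    obtain ⟨v, hv, hv0⟩ := Submodule.exists_mem_ne_zero_of_ne_bot h3
    obtain ⟨z, hz1, hz2, -⟩ := lift_kernel B v hv hv0
    exact ⟨z, hz1, hz2⟩
  · obtain ⟨v, hv1, hv2, hv3⟩ := hzero i
    obtain ⟨z, hz1, hz2, hz3⟩ := lift_kernel B v hv1 hv2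
    exact ⟨z, hz1, hz2, hz3 i hv3⟩

/-- A prime dividing the determinant has a kernel vector. -/
lemma exists_kernel_of_dvd_det {p : ℕ} (hp : p.Prime) (B : Matrix ι ι ℤ)
    (h : p ∣ B.det.natAbs) :
    ∃ z : ι → ℤ, (∃ l, ¬ (p : ℤ) ∣ z l) ∧ ∀ l, (p : ℤ) ∣ B.mulVec z l := by
  have : Fact p.Prime := ⟨hp⟩
  have h0 : (B.map (Int.cast : ℤ → ZMod p)).det = 0 := by
    rw [show B.map (Int.cast : ℤ → ZMod p) = B.map (Int.castRingHom (ZMod p)) from rfl,
      ← RingHom.mapMatrix_apply, ← RingHom.map_det, eq_intCast,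
      ZMod.intCast_zmod_eq_zero_iff_dvd, Int.natCast_dvd]
    exact h
  obtain ⟨v, hv0, hv⟩ := Matrix.exists_mulVec_eq_zero_iff.2 h0
  obtain ⟨z, hz1, hz2, -⟩ := lift_kernel B v hv hv0
  exact ⟨z, hz1, hz2⟩

/-- A kernel vector vanishing at `i` shows that `p` divides the determinant of the minor. -/
lemma dvd_det_minor {p : ℕ} (hp : p.Prime) (B : Matrix ι ι ℤ) (i : ι) (k : ι → ℤ)
    (hk : ∃ l, ¬ (p : ℤ) ∣ k l) (hki : (p : ℤ) ∣ k i) (hBk : ∀ l, (p : ℤ) ∣ B.mulVec k l) :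
    p ∣ (B.submatrix (Subtype.val : {l // l ≠ i} → ι) Subtype.val).det.natAbs := by
  have : Fact p.Prime := ⟨hp⟩
  obtain ⟨l, hl⟩ := hk
  have hli : l ≠ i := fun h => hl (h ▸ hki)
  rw [← Int.natCast_dvd, ← ZMod.intCast_zmod_eq_zero_iff_dvd, ← eq_intCast (Int.castRingHom _),
    RingHom.map_det]
  refine Matrix.exists_mulVec_eq_zero_iff.1
    ⟨fun j => ((k j.1 : ℤ) : ZMod p), fun h => hl ?_, ?_⟩
  · exact (ZMod.intCast_zmod_eq_zero_iff_dvd _ _).1 (congrFun h ⟨l, hli⟩)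
  funext j
  have h1 := (ZMod.intCast_zmod_eq_zero_iff_dvd _ p).2 (hBk j.1)
  have h2 := (ZMod.intCast_zmod_eq_zero_iff_dvd _ p).2 hki
  simp only [mulVec, dotProduct] at h1
  rw [Fintype.sum_eq_add_sum_subtype_ne _ i, Int.cast_add, Int.cast_mul, h2, mul_zero, zero_add,
    Int.cast_sum] at h1
  simp only [mulVec, dotProduct, RingHom.mapMatrix_apply, Matrix.map_apply, submatrix_apply,
    Pi.zero_apply, eq_intCast, ← Int.cast_mul]
  exact h1

/-- If some kernel vector is a unit at `i`, the deleted column is orthogonal to the kernel of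
the minor. -/
lemma dvd_column_dot {p : ℕ} (hp : p.Prime) {B : Matrix ι ι ℤ} (hB : B.IsSymm) (i : ι)
    (k : ι → ℤ) (hki : ¬ (p : ℤ) ∣ k i) (hBk : ∀ l, (p : ℤ) ∣ B.mulVec k l)
    (u : {l // l ≠ i} → ℤ)
    (hu : ∀ j, (p : ℤ) ∣ (B.submatrix (Subtype.val : {l // l ≠ i} → ι) Subtype.val).mulVec u j) :
    (p : ℤ) ∣ (fun l : {l // l ≠ i} => B l.1 i) ⬝ᵥ u := by
  refine ((Nat.prime_iff_prime_int.1 hp).dvd_or_dvd (?_ : (p : ℤ) ∣ k i * _)).resolve_left hki
  have e : ∑ l : {l // l ≠ i}, u l * B.mulVec k l.1 =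
      k i * ((fun l : {l // l ≠ i} => B l.1 i) ⬝ᵥ u) +
        ∑ j : {l // l ≠ i}, k j.1 *
          (B.submatrix (Subtype.val : {l // l ≠ i} → ι) Subtype.val).mulVec u j := by
    simp only [mulVec, dotProduct, submatrix_apply]
    simp only [Fintype.sum_eq_add_sum_subtype_ne (fun j => B _ j * k j) i, mul_add, mul_sum,
      sum_add_distrib]
    congr 1
    · exact sum_congr rfl fun l _ => by ring
    · rw [sum_comm]
      exact sum_congr rfl fun j _ => sum_congr rfl fun l _ => by rw [← hB.apply l.1 j.1]; ring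
  have h1 : (p : ℤ) ∣ ∑ l : {l // l ≠ i}, u l * B.mulVec k l.1 :=
    dvd_sum fun l _ => dvd_mul_of_dvd_right (hBk _) _
  have h2 : (p : ℤ) ∣ ∑ j : {l // l ≠ i}, k j.1 *
      (B.submatrix (Subtype.val : {l // l ≠ i} → ι) Subtype.val).mulVec u j :=
    dvd_sum fun j _ => dvd_mul_of_dvd_right (hu j) _
  rw [e] at h1
  exact (dvd_add_left h2).1 h1

/-- Primes above a power of `m` whose `e`-th powers divide a small number are few. -/
lemma card_primes_le {m n : ℕ} {δ : ℝ} {e : ℕ} (hm : 2 ≤ m) (hn : n ≠ 0)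
    (hn2 : (n : ℝ) ^ 2 ≤ (m : ℝ) ^ m) (S : Finset ℕ)
    (hS : ∀ p ∈ S, p.Prime ∧ p ^ e ∣ n ∧ (m : ℝ) ^ (1 - δ) < p) :
    2 * e * (1 - δ) * S.card ≤ (m : ℝ) := by
  have hcop : (S : Set ℕ).Pairwise fun a b => IsCoprime ((a : ℤ) ^ e) ((b : ℤ) ^ e) := by
    intro a ha b hb hab
    refine IsCoprime.pow ?_
    rw [Nat.isCoprime_iff_coprime]
    exact (Nat.coprime_primes (hS a ha).1 (hS b hb).1).2 hab
  have hdvd : (∏ p ∈ S, (p : ℤ) ^ e) ∣ (n : ℤ) :=
    Finset.prod_dvd_of_coprime hcop fun p hp => by exact_mod_cast (hS p hp).2.1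
  have hle : (∏ p ∈ S, p ^ e) ≤ n := by
    refine Nat.le_of_dvd (Nat.pos_of_ne_zero hn) ?_
    exact_mod_cast hdvd
  have hm2 : (2 : ℝ) ≤ m := by exact_mod_cast hm
  have hlm : 0 < Real.log (m : ℝ) := Real.log_pos (by linarith)
  have h1 : Real.log ((∏ p ∈ S, p ^ e : ℕ) : ℝ) ≤ Real.log n :=
    Real.log_le_log (by exact_mod_cast prod_pos fun p hp => pow_pos (hS p hp).1.pos e)
      (by exact_mod_cast hle)
  have h2 := Real.log_le_log (by positivity) hn2
  rw [Real.log_pow, Real.log_pow, Nat.cast_ofNat] at h2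
  rw [Nat.cast_prod, Real.log_prod (fun p hp => by
    exact_mod_cast (pow_pos (hS p hp).1.pos e).ne')] at h1
  have h3 : (S.card : ℝ) * (e * ((1 - δ) * Real.log m)) ≤
      ∑ p ∈ S, Real.log ((p ^ e : ℕ) : ℝ) := by
    refine le_of_eq_of_le (by rw [sum_const, nsmul_eq_mul])
      (sum_le_sum (s := S) (f := fun _ => (e : ℝ) * ((1 - δ) * Real.log m)) fun p hp => ?_)
    rw [Nat.cast_pow, Real.log_pow, ← Real.log_rpow (by positivity)]
    exact mul_le_mul_of_nonneg_left (Real.log_le_log (by positivity) (hS p hp).2.2.le)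
      (Nat.cast_nonneg e)
  refine le_of_mul_le_mul_right ?_ hlm
  nlinarith

end Vale.Agent.P160R
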